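/-!
# R227 (S0351): stable primes of the Lubin–Tate ring — blueprint

`q = p ^ n`, `k = 𝔽_q`, `E₀ = W(k)[[u]]`, `v_h` = coefficient of `X ^ p ^ h` in `[p]_H`, `I_h = (v_0..v_{h-1})`.

**Easy half** (`LT1`–`LT3`, `Height`): `I_n = 𝔪` (rigidity: if `[p ^ M] ≡ 0 mod X ^ q ^ M` over a
quotient, the Verschiebung is a ⋆-isomorphism from the Frobenius twist, so Frobenius is the identity),
hence `I_h` is prime; `I_h` is stable.

**Hard half** (`Final`): let `J ≠ ⊤` be radical and stable, `h ≤ n` maximal with `I_h ≤ J`.  If
`h < n`, a prime `P ⊇ J` misses `v_h`; take a point `x : E₀ → O_C` with kernel `P` (`Point1/2`).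
Every `f ∈ J` vanishes on the orbit of `x`; `main_zero` / `main_pos` give `f ∈ I_h`.
Both rest on the counting lemma `count_le` (`Count`): a finite set of points separated by bounded
functions with cost `η` cannot lie on a hypersurface of multiplicity `Q` unless
`card ≤ Q N ^ (r-1)`, `ρ ^ N < η`.

* `h = 0` (`Cong`, `Span`, `Zfun`, `Periods`, `Chart`, `Interp`, `MainZero`): Gross–Hopkins periods
  `Z_α = lim p ^ m coeff_{α q ^ m} log` are linear for the action; the orbit contains a grid.
* `1 ≤ h < n` (`Weier`, `Tors`, `Root`, `Quant`, `MainPos`): modulo `𝔪 ^ p ^ (h M)`, a function on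
  `V(I_h)` is a power series `φ` of order `≲ p ^ ((n-h) M)` in `s = t ^ p ^ (h M)`, `t` a basis of the
  `p ^ M`-torsion, and the group acts on `s` through the Honda law (`Honda`, `SetupEx`).  `Quant`
  bounds the vanishing order of `φ` on the orbit linearly in its order, using digit functions
  (`Orth`, `Moore`, `Theta`, `Digit`) built from Witt vectors; `q ^ M ≤ C p ^ ((n-h) M)` is absurd.
-/
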